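import Crest.Agent.Lib.Saxl.EnvelopeLarge
import Crest.Agent.Lib.Saxl.Family

/-!
# Saxl: the envelope theorem for the default rule (row 195, L4)

Rule: `s = sE t` is the least even `s` with `28 t ≤ 10 s²` (`α = 2.8`); the band of `t` is the columns with heights in
`(lo t, t]`, `lo t = 0` for `t ≤ 58`, `lo t = ⌊t/8.3⌋` above; the needed mass is `need n x s = n - T_{x-s} + cmin`.
`heavy_band`: for `x ≥ 23`, `T_{x-1} < n ≤ T_x`, every `c` of size `n` has a band with
`2 s ≤ x`, of mass at least `need n x s`, in `c` or `c'`.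

Three ranges: the boundary program (`x < 36`, per `n`), corner lists (`36 ≤ x < 2500`, per `x`), `two_corner`.
-/

set_option autoImplicit false
set_option linter.unusedSectionVars false

namespace Crest.Agent.Lib.Saxl.EnvInst

/-- Search for the least even `s` with `28 t ≤ 10 s²`. -/
def sAux (t : ℕ) : ℕ → ℕ → ℕ
  | 0, s => s
  | f + 1, s => bif Nat.ble (28 * t) (10 * (s * s)) then s else sAux t f (s + 2)

/-- The thickness needed by a column of height `t`. -/
def sE (t : ℕ) : ℕ := sAux t (28 * t + 1) 0

lemma sAux_spec (t : ℕ) : ∀ (f s : ℕ), s % 2 = 0 → (∀ s', s' < s → s' % 2 = 0 → 10 * (s' * s') < 28 * t) →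
    28 * t ≤ 10 * ((s + 2 * f) * (s + 2 * f)) →
    (sAux t f s) % 2 = 0 ∧ 28 * t ≤ 10 * (sAux t f s * sAux t f s) ∧
      ∀ s', s' < sAux t f s → s' % 2 = 0 → 10 * (s' * s') < 28 * t := by
  intro f
  induction f with
  | zero =>
    intro s h1 h2 h3
    simpa [sAux] using ⟨h1, by simpa using h3, h2⟩
  | succ f ih =>
    intro s h1 h2 h3
    simp only [sAux]
    by_cases h : 28 * t ≤ 10 * (s * s)
    · rw [Nat.ble_eq_true_of_le h, cond_true]
      exact ⟨h1, h, h2⟩
    · have : Nat.ble (28 * t) (10 * (s * s)) = false := by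
        rw [← Bool.not_eq_true, Nat.ble_eq]; exact h
      rw [this, cond_false]
      apply ih (s + 2) (by omega)
      · intro s' hs' hs2
        rcases Nat.lt_or_ge s' s with hlt | hge
        · exact h2 s' hlt hs2
        · have : s' = s := by omega
          subst this
          omega
      · rwa [show s + 2 + 2 * f = s + 2 * (f + 1) by ring]

lemma sE_spec (t : ℕ) : (sE t) % 2 = 0 ∧ 28 * t ≤ 10 * (sE t * sE t) ∧
    ∀ s', s' < sE t → s' % 2 = 0 → 10 * (s' * s') < 28 * t := by
  apply sAux_spec t _ 0 rfl
  · intro s' hs'; omega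
  · have : 28 * t + 1 ≤ 0 + 2 * (28 * t + 1) := by omega
    nlinarith

/-- The lower end of the band. -/
def lo (t : ℕ) : ℕ := bif Nat.ble t 58 then 0 else t * 10 / 83

lemma lo_lt (t : ℕ) (h : t ≠ 0) : lo t < t := by
  unfold lo
  by_cases h2 : t ≤ 58
  · rw [Nat.ble_eq_true_of_le h2, cond_true]; omega
  · have : Nat.ble t 58 = false := by
      rw [← Bool.not_eq_true, Nat.ble_eq]; exact h2
    rw [this, cond_false]
    omega

lemma lo_small {t : ℕ} (h2 : t ≤ 58) : lo t = 0 := by
  unfold lo
  rw [Nat.ble_eq_true_of_le h2, cond_true]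

lemma lo_large {t : ℕ} (h2 : 58 < t) : lo t = t * 10 / 83 := by
  unfold lo
  have : Nat.ble t 58 = false := by
    rw [← Bool.not_eq_true, Nat.ble_eq]; omega
  rw [this, cond_false]

/-- The size defect allowed at the child. -/
def cmin (n x : ℕ) : ℕ :=
  let c := triN x - n
  bif Nat.beq (x % 2) 0 && Nat.beq (c % 2) 1 && !(Nat.beq c 1) then 3
  else bif Nat.beq (x % 2) 0 && Nat.beq c 1 then 0 else c % 2

lemma cmin_le (n x : ℕ) : cmin n x ≤ triN x - n := by
  unfold cmin
  simp only
  set c := triN x - n with hc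
  by_cases h1 : x % 2 = 0
  · by_cases h2 : c % 2 = 1
    · by_cases h3 : c = 1
      · simp [h1, h3]
      · have e1 : Nat.beq (x % 2) 0 = true := by simp [h1]
        have e2 : Nat.beq (c % 2) 1 = true := by simp [h2]
        have e3 : Nat.beq c 1 = false := by
          rw [← Bool.not_eq_true]; intro h; exact h3 (Nat.eq_of_beq_eq_true h)
        simp only [e1, e2, e3, Bool.and_true, Bool.not_false, cond_true]
        omega
    · have e1 : Nat.beq (c % 2) 1 = false := by
        rw [← Bool.not_eq_true]; intro h; exact h2 (Nat.eq_of_beq_eq_true h)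
      simp only [e1, Bool.and_false, Bool.false_and, cond_false]
      by_cases h3 : c = 1
      · omega
      · have e3 : Nat.beq c 1 = false := by
          rw [← Bool.not_eq_true]; intro h; exact h3 (Nat.eq_of_beq_eq_true h)
        simp only [e3, Bool.and_false, cond_false]
        exact Nat.mod_le _ _
  · have e1 : Nat.beq (x % 2) 0 = false := by
      rw [← Bool.not_eq_true]; intro h; exact h1 (Nat.eq_of_beq_eq_true h)
    simp only [e1, Bool.false_and, cond_false]
    exact Nat.mod_le _ _

/-- The needed mass of a strip of thickness `s`. -/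
def need (n x s : ℕ) : ℕ := n - triN (x - s) + cmin n x

/-- The mass of the full strip of thickness `s` of the staircase. -/
def capX (x s : ℕ) : ℕ := triN x - triN (x - s)

lemma need_le_capX {n x s : ℕ} (hn : n ≤ triN x) (hs : triN (x - s) ≤ n) : need n x s ≤ capX x s := by
  unfold need capX
  have := cmin_le n x
  omega

lemma capX_le_mul (x s : ℕ) : capX x s ≤ x * s := by
  unfold capX
  induction s with
  | zero => simp
  | succ s ih =>
    by_cases h : s < x
    · obtain ⟨y, hy⟩ : ∃ y, x - s = y + 1 := ⟨x - s - 1, by omega⟩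
      have e : x - (s + 1) = y := by omega
      rw [e]
      rw [hy, triN_succ] at ih
      have h2 : triN y + y + 1 ≤ triN x := by
        rw [← triN_succ, ← hy]
        exact triN_mono (by omega)
      have h3 : y + 1 ≤ x := by omega
      rw [mul_add, mul_one]
      omega
    · have e : x - (s + 1) = x - s := by omega
      rw [e, mul_add]
      omega

/-- **Stuck** at `n`, `x`: no heavy band. -/
def Light (c : YoungDiagram) (n x : ℕ) : Prop :=
  ∀ t, t ≠ 0 → 2 * sE t ≤ x → bandMass c (lo t) t < need n x (sE t)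

lemma massLE_le_card (c : YoungDiagram) (t : ℕ) : massLE c t ≤ c.card := by
  rw [← card_cells_colLen_le]
  exact Finset.card_le_card (Finset.filter_subset _ _)

/-- The function `b` of the boundary program. -/
def bN (n x t : ℕ) : ℕ := bif Nat.ble (2 * sE t) x then need n x (sE t) else n + 1

lemma band_lt_bN {c : YoungDiagram} {n x : ℕ} (hc : c.card ≤ n) (h : Light c n x) {t : ℕ} (ht : t ≠ 0) :
    bandMass c (lo t) t < bN n x t := by
  unfold bN
  by_cases h2 : 2 * sE t ≤ x
  · rw [Nat.ble_eq_true_of_le h2, cond_true]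
    exact h t ht h2
  · have : Nat.ble (2 * sE t) x = false := by
      rw [← Bool.not_eq_true, Nat.ble_eq]; exact h2
    rw [this, cond_false]
    have h3 := massLE_le_card c t
    unfold bandMass
    omega

/-- The function `B` of the boundary program. -/
def BN (cut n x t : ℕ) : ℕ :=
  bif Nat.beq t 0 then 1 else bif Nat.blt cut t then n + 1 else Bd (bN n x) lo t t + 1

lemma massLE_lt_BN {c : YoungDiagram} {n x : ℕ} (hc : c.card = n) (h : Light c n x) (cut t : ℕ) :
    massLE c t < BN cut n x t := by
  unfold BN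
  by_cases h0 : t = 0
  · subst h0
    simp [massLE_zero]
  · have e0 : Nat.beq t 0 = false := by
      rw [← Bool.not_eq_true]; intro h; exact h0 (Nat.eq_of_beq_eq_true h)
    rw [e0, cond_false]
    cases hb : Nat.blt cut t
    · rw [cond_false]
      have := massLE_le_Bd c (bN n x) lo lo_lt t (fun t' h0' _ => band_lt_bN hc.le h h0') t t le_rfl le_rfl
      omega
    · rw [cond_true]
      have := massLE_le_card c t
      omega

/-- The check of a value of `x` by the boundary program. -/
def dpAll (x cut : ℕ) : Bool :=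
  (List.range x).all fun r => dpOK (triN (x - 1) + r + 1) (BN cut (triN (x - 1) + r + 1) x) false

theorem not_light_of_dpAll {x cut n : ℕ} (h : dpAll x cut = true) (h1 : triN (x - 1) < n) (h2 : n ≤ triN x)
    (hx : 1 ≤ x) {c : YoungDiagram} (hc : c.card = n) :
    ¬ (Light c n x ∧ Light c.transpose n x) := by
  rintro ⟨hl, hl'⟩
  obtain ⟨r, hr, rfl⟩ : ∃ r, r < x ∧ n = triN (x - 1) + r + 1 := by
    refine ⟨n - triN (x - 1) - 1, ?_, by omega⟩
    obtain ⟨y, rfl⟩ : ∃ y, x = y + 1 := ⟨x - 1, by omega⟩
    simp only [Nat.add_sub_cancel] at h1 ⊢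
    rw [triN_succ] at h2
    omega
  have hall : dpOK (triN (x - 1) + r + 1) (BN cut (triN (x - 1) + r + 1) x) false = true := by
    unfold dpAll at h
    rw [List.all_eq_true] at h
    exact h r (List.mem_range.2 hr)
  obtain ⟨t, ht⟩ := exists_heavy_of_dpOK hc (by omega) (fun h => by simp at h) hall
  have a1 := massLE_lt_BN hc hl cut t
  have a2 := massLE_lt_BN (c := c.transpose) (by rw [card_transpose']; exact hc) hl' cut t
  omega

/-! ### Corner lists -/

/-- The function `b` for all `n` of an interval. -/
def bX (x t : ℕ) : ℕ := bif Nat.ble (2 * sE t) x then capX x (sE t) else triN x + 1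

/-- The bound of `massLE` for all `n` of an interval. -/
def BX (x t : ℕ) : ℕ := Bd (bX x) lo t t

lemma massLE_le_BX {c : YoungDiagram} {n x : ℕ} (hx : 1 ≤ x) (hc : c.card = n) (h1 : triN (x - 1) < n) (h2 : n ≤ triN x)
    (h : Light c n x) (t : ℕ) : massLE c t ≤ BX x t := by
  unfold BX
  apply massLE_le_Bd c (bX x) lo lo_lt t _ t t le_rfl le_rfl
  intro t' h0 _
  unfold bX
  by_cases h3 : 2 * sE t' ≤ x
  · rw [Nat.ble_eq_true_of_le h3, cond_true]
    have h4 := h t' h0 h3
    have hs : 1 ≤ sE t' := by
      have := (sE_spec t').2.1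
      by_contra hcon
      have h0' : sE t' = 0 := by omega
      rw [h0'] at this
      omega
    have := need_le_capX (n := n) (x := x) (s := sE t') h2 (by
      have : triN (x - sE t') ≤ triN (x - 1) := triN_mono (by omega)
      omega)
    omega
  · have : Nat.ble (2 * sE t') x = false := by
      rw [← Bool.not_eq_true, Nat.ble_eq]; exact h3
    rw [this, cond_false]
    have h5 := massLE_le_card c t'
    unfold bandMass
    omega

/-- The check of `x` by a list of corners. -/
def midOK (x : ℕ) (l : List (ℕ × ℕ)) : Bool :=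
  l.all (cornerOK (BX x) (triN (x - 1) + 1)) && Nat.blt (triN x) (stairArea l 0)

theorem not_light_of_midOK {x n : ℕ} {l : List (ℕ × ℕ)} (h : midOK x l = true) (h1 : triN (x - 1) < n) (h2 : n ≤ triN x)
    (hx : 1 ≤ x) {c : YoungDiagram} (hc : c.card = n) :
    ¬ (Light c n x ∧ Light c.transpose n x) := by
  rintro ⟨hl, hl'⟩
  have hcard' : c.transpose.card = n := by rw [card_transpose']; exact hc
  simp only [midOK, Bool.and_eq_true, List.all_eq_true] at h
  obtain ⟨h3, h4⟩ := h
  have hB := massLE_le_BX hx hc h1 h2 hl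
  have hB' := massLE_le_BX hx hcard' h1 h2 hl'
  have harea := stairArea_le_card c l (by
    intro p hp
    apply mem_of_cornerOK (B := BX x) (tmax := max p.1 p.2) (fun t _ => hB t) (fun t _ => hB' t)
      (le_max_left _ _) (le_max_right _ _)
    have h5 := h3 p hp
    simp only [cornerOK, Bool.or_eq_true, beq_iff_eq, decide_eq_true_eq] at h5 ⊢
    rcases h5 with ((h5 | h5) | h5) | h5
    · exact Or.inl (Or.inl (Or.inl h5))
    · exact Or.inl (Or.inl (Or.inr h5))
    · exact Or.inl (Or.inr (by omega))
    · exact Or.inr (by omega))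
  have h6 : triN x < stairArea l 0 := by simpa [Nat.blt_eq] using h4
  omega

end Crest.Agent.Lib.Saxl.EnvInst
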