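import Crest.Agent.Lib.Saxl.EnvI.Defs

set_option autoImplicit false

namespace Crest.Agent.Lib.Saxl.EnvInst

theorem dp_ok_23 : dpAll 23 35 = true := by decide +kernel
theorem dp_ok_24 : dpAll 24 51 = true := by decide +kernel
theorem dp_ok_25 : dpAll 25 51 = true := by decide +kernel
theorem dp_ok_26 : dpAll 26 51 = true := by decide +kernel
theorem dp_ok_27 : dpAll 27 51 = true := by decide +kernel
theorem dp_ok_28 : dpAll 28 70 = true := by decide +kernel
theorem dp_ok_29 : dpAll 29 70 = true := by decide +kernel
theorem dp_ok_30 : dpAll 30 70 = true := by decide +kernel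
end Crest.Agent.Lib.Saxl.EnvInst
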