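import Crest.Agent.Lib.Saxl.EnvI.Defs

set_option autoImplicit false

namespace Crest.Agent.Lib.Saxl.EnvInst

theorem dp_ok_31 : dpAll 31 70 = true := by decide +kernel
theorem dp_ok_32 : dpAll 32 91 = true := by decide +kernel
theorem dp_ok_33 : dpAll 33 91 = true := by decide +kernel
theorem dp_ok_34 : dpAll 34 91 = true := by decide +kernel
theorem dp_ok_35 : dpAll 35 91 = true := by decide +kernel

end Crest.Agent.Lib.Saxl.EnvInst
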