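import Crest.Agent.Lib.Saxl.EnvI.Mid
import Crest.Agent.Lib.Saxl.EnvI.DpA
import Crest.Agent.Lib.Saxl.EnvI.DpB

/-!
# Saxl: the envelope theorem, final assembly
-/

set_option autoImplicit false

namespace Crest.Agent.Lib.Saxl.EnvInst

lemma sE_ge_two {t : ℕ} (h : t ≠ 0) : 2 ≤ sE t := by
  obtain ⟨h1, h2, _⟩ := sE_spec t
  by_contra hcon
  have h0 : sE t = 0 := by omega
  rw [h0] at h2
  omega

lemma sE_lower {t : ℕ} (h : t ≠ 0) : 10 * ((sE t - 2) * (sE t - 2)) < 28 * t := by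
  obtain ⟨h1, _, h3⟩ := sE_spec t
  have := sE_ge_two h
  exact h3 (sE t - 2) (by omega) (by omega)

/-- For `x` large the limit on the thickness is automatic for `t ≤ x`. -/
lemma two_sE_le {x t : ℕ} (hx : 2500 ≤ x) (h0 : t ≠ 0) (ht : t ≤ x) : 2 * sE t ≤ x := by
  by_contra hcon
  have h1 := sE_lower h0
  have h2 := sE_ge_two h0
  obtain ⟨k, hk⟩ : ∃ k, sE t = k + 2 := ⟨sE t - 2, by omega⟩
  rw [hk] at h1 hcon
  simp only [Nat.add_sub_cancel] at h1
  nlinarith

theorem small_check : (List.range 59).all (fun t => Nat.beq t 0 || Nat.ble (sE t * sE t) (9 * t)) = true := by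
  decide +kernel

lemma sE_sq_small {t : ℕ} (h0 : t ≠ 0) (h : t ≤ 58) : sE t * sE t ≤ 9 * t := by
  have h1 := small_check
  rw [List.all_eq_true] at h1
  have h2 := h1 t (List.mem_range.2 (by omega))
  rw [Bool.or_eq_true] at h2
  rcases h2 with h2 | h2
  · exact absurd (Nat.eq_of_beq_eq_true h2) h0
  · exact Nat.le_of_ble_eq_true h2

lemma sE_real_small {t : ℕ} (h0 : t ≠ 0) (h : t ≤ 58) : (sE t : ℝ) ≤ 3 * Real.sqrt t := by
  have h1 := sE_sq_small h0 h
  have h2 : ((sE t : ℝ)) * sE t ≤ 9 * t := by exact_mod_cast h1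
  have h3 : (sE t : ℝ) ≤ Real.sqrt (9 * t) := by
    apply Real.le_sqrt_of_sq_le
    nlinarith
  have h4 : Real.sqrt (9 * (t : ℝ)) = 3 * Real.sqrt t := by
    rw [Real.sqrt_mul (by norm_num), show (9 : ℝ) = 3 ^ 2 by norm_num,
      Real.sqrt_sq (by norm_num)]
  rwa [h4] at h3

lemma sE_real_large {t : ℕ} (h : 58 < t) : (sE t : ℝ) ≤ (1 - 0.35) * 3 * Real.sqrt t := by
  have h0 : t ≠ 0 := by omega
  have h1 := sE_lower h0
  have h2 := sE_ge_two h0
  obtain ⟨k, hk⟩ : ∃ k, sE t = k + 2 := ⟨sE t - 2, by omega⟩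
  rw [hk] at h1 ⊢
  simp only [Nat.add_sub_cancel] at h1
  have h3 : ((k : ℝ)) * k ≤ 2.8 * t := by
    have : ((10 * (k * k) : ℕ) : ℝ) ≤ ((28 * t : ℕ) : ℝ) := by exact_mod_cast h1.le
    push_cast at this
    nlinarith
  have h4 : (k : ℝ) ≤ Real.sqrt (2.8 * t) := by
    apply Real.le_sqrt_of_sq_le
    nlinarith
  have h5 : Real.sqrt (2.8 * (t : ℝ)) = Real.sqrt 2.8 * Real.sqrt t :=
    Real.sqrt_mul (by norm_num) _
  have h6 : Real.sqrt 2.8 ≤ 1.6734 := by
    rw [Real.sqrt_le_left (by norm_num)]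
    norm_num
  have h7 : (7.25 : ℝ) ≤ Real.sqrt t := by
    apply Real.le_sqrt_of_sq_le
    have : (59 : ℝ) ≤ t := by exact_mod_cast h
    norm_num
    linarith
  have h8 : Real.sqrt 2.8 * Real.sqrt t ≤ 1.6734 * Real.sqrt t :=
    mul_le_mul_of_nonneg_right h6 (Real.sqrt_nonneg _)
  push_cast
  rw [h5] at h4
  nlinarith

lemma Sd_real (f t : ℕ) : (Sd sE lo f t : ℝ) ≤ 3 * Real.sqrt t := by
  apply Sd_le_sqrt (C := 3) (γ := 0.35) (T := 58) (by norm_num) (by norm_num)
  · intro t h0 ht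
    exact ⟨lo_small ht, sE_real_small h0 ht⟩
  · intro t ht
    refine ⟨?_, sE_real_large ht⟩
    rw [lo_large ht]
    have h1 : ((t * 10 / 83 : ℕ) : ℝ) ≤ ((t * 10 : ℕ) : ℝ) / (83 : ℕ) := Nat.cast_div_le
    push_cast at h1
    have h2 : (0 : ℝ) ≤ t := by positivity
    nlinarith

theorem not_light_large {x n : ℕ} (hx : 2500 ≤ x) (h1 : triN (x - 1) < n) (h2 : n ≤ triN x)
    {c : YoungDiagram} (hc : c.card = n) : ¬ (Light c n x ∧ Light c.transpose n x) := by
  rintro ⟨hl, hl'⟩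
  have hcard' : c.transpose.card = n := by rw [card_transpose']; exact hc
  have hb : ∀ t, t ≠ 0 → (fun t => need n x (sE t)) t ≤ x * sE t := by
    intro t h0
    have hs := sE_ge_two h0
    have h3 : triN (x - sE t) ≤ n := by
      have : triN (x - sE t) ≤ triN (x - 1) := triN_mono (by omega)
      omega
    exact (need_le_capX h2 h3).trans (capX_le_mul _ _)
  have hmain : ∀ {d : YoungDiagram}, Light d n x → ∀ t, t ≤ x → massLE d t ≤ x * Sd sE lo t t := by
    intro d hd t ht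
    have h3 := massLE_le_Bd d (fun t => need n x (sE t)) lo lo_lt x
      (fun t' h0 ht' => hd t' h0 (two_sE_le hx h0 ht')) t t ht le_rfl
    exact h3.trans (Bd_le_mul_Sd hb t t)
  apply two_corner (x := x) (c := c) (S := fun t => Sd sE lo t t) hx
  · rw [hc]
    have e : triN (x - 1) = x * (x - 1) / 2 := by
      obtain ⟨y, rfl⟩ : ∃ y, x = y + 1 := ⟨x - 1, by omega⟩
      simp only [Nat.add_sub_cancel]
      unfold triN
      rw [mul_comm]
    omega
  · rw [hc]
    exact h2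
  · intro t _
    exact Sd_sq_le_of_sqrt (C := 3) (C2 := 16) (by norm_num) (fun t => Sd_real t t) t
  · exact hmain hl
  · exact hmain hl'

theorem not_light {x n : ℕ} (hx : 23 ≤ x) (h1 : triN (x - 1) < n) (h2 : n ≤ triN x)
    {c : YoungDiagram} (hc : c.card = n) : ¬ (Light c n x ∧ Light c.transpose n x) := by
  rcases Nat.lt_or_ge x 36 with h36 | h36
  · have : x = 23 ∨ x = 24 ∨ x = 25 ∨ x = 26 ∨ x = 27 ∨ x = 28 ∨ x = 29 ∨ x = 30 ∨ x = 31 ∨ x = 32 ∨ x = 33 ∨ x = 34
        ∨ x = 35 := by omega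
    rcases this with rfl | rfl | rfl | rfl | rfl | rfl | rfl | rfl | rfl | rfl | rfl | rfl | rfl
    · exact not_light_of_dpAll dp_ok_23 h1 h2 (by norm_num) hc
    · exact not_light_of_dpAll dp_ok_24 h1 h2 (by norm_num) hc
    · exact not_light_of_dpAll dp_ok_25 h1 h2 (by norm_num) hc
    · exact not_light_of_dpAll dp_ok_26 h1 h2 (by norm_num) hc
    · exact not_light_of_dpAll dp_ok_27 h1 h2 (by norm_num) hc
    · exact not_light_of_dpAll dp_ok_28 h1 h2 (by norm_num) hc
    · exact not_light_of_dpAll dp_ok_29 h1 h2 (by norm_num) hc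
    · exact not_light_of_dpAll dp_ok_30 h1 h2 (by norm_num) hc
    · exact not_light_of_dpAll dp_ok_31 h1 h2 (by norm_num) hc
    · exact not_light_of_dpAll dp_ok_32 h1 h2 (by norm_num) hc
    · exact not_light_of_dpAll dp_ok_33 h1 h2 (by norm_num) hc
    · exact not_light_of_dpAll dp_ok_34 h1 h2 (by norm_num) hc
    · exact not_light_of_dpAll dp_ok_35 h1 h2 (by norm_num) hc
  rcases Nat.lt_or_ge x 169 with h169 | h169
  · have ha := midTable_ok
    have hr := midTable_range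
    rw [List.all_eq_true] at ha hr
    have h3 := hr (x - 36) (List.mem_range.2 (by omega))
    rw [List.any_eq_true] at h3
    obtain ⟨p, hp, hq⟩ := h3
    have h4 : p.1 = x := by
      have := Nat.eq_of_beq_eq_true hq
      omega
    have h5 := ha p hp
    rw [h4] at h5
    exact not_light_of_midOK h5 h1 h2 (by omega) hc
  rcases Nat.lt_or_ge x 2500 with h25 | h25
  · have hu := uni_ok
    rw [List.all_eq_true] at hu
    have h3 := hu (x - 169) (List.mem_range.2 (by omega))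
    rw [show 169 + (x - 169) = x by omega] at h3
    exact not_light_of_midOK h3 h1 h2 (by omega) hc
  · exact not_light_large h25 h1 h2 hc

/-- **The envelope theorem for the default rule.** For `x ≥ 23`, `T_{x-1} < n ≤ T_x`, a `c` of size `n`: in `c` or `c'` there is
`t ≠ 0` such that, with `s = sE t` (even, `28 t ≤ 10 s²`, least such), `2 s ≤ x` and the columns with heights in
`(lo t, t]` have mass at least `need n x s`. -/
theorem heavy_band {x n : ℕ} (hx : 23 ≤ x) (h1 : triN (x - 1) < n) (h2 : n ≤ triN x)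
    {c : YoungDiagram} (hc : c.card = n) :
    ∃ t, t ≠ 0 ∧ 2 * sE t ≤ x ∧
      (need n x (sE t) ≤ bandMass c (lo t) t ∨ need n x (sE t) ≤ bandMass c.transpose (lo t) t) := by
  by_contra hcon
  push Not at hcon
  apply not_light hx h1 h2 hc
  constructor
  · intro t h0 h3
    exact (hcon t h0 h3).1
  · intro t h0 h3
    exact (hcon t h0 h3).2

end Crest.Agent.Lib.Saxl.EnvInst
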