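import Crest.Agent.Lib.Saxl.EnvI.Defs

set_option autoImplicit false

namespace Crest.Agent.Lib.Saxl.EnvInst

/-- Corner lists for the small values of `x`. -/
def midTable : List (ℕ × List (ℕ × ℕ)) := [
  (36, [(1, 70), (2, 58), (3, 51), (4, 42), (6, 35), (9, 21), (11, 17), (13, 14), (15, 12), (17, 11), (19, 10), (21, 9), (23, 7), (35, 6), (42, 4), (51, 3), (58, 2), (70, 1)]),
  (37, [(1, 70), (2, 58), (4, 49), (6, 35), (8, 23), (10, 21), (11, 19), (13, 16), (16, 13), (19, 11), (21, 10), (23, 8), (35, 6), (37, 5), (49, 4), (51, 3), (58, 2), (70, 1)]),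
  (38, [(1, 91), (4, 51), (6, 35), (11, 21), (18, 13), (23, 9), (35, 6), (51, 4), (58, 3), (91, 1)]),
  (39, [(1, 91), (3, 58), (5, 47), (6, 38), (13, 20), (20, 13), (38, 6), (47, 5), (58, 3), (91, 1)]),
  (40, [(1, 91), (5, 51), (6, 42), (13, 22), (22, 13), (42, 6), (51, 5), (58, 3), (91, 1)]),
  (41, [(1, 107), (4, 58), (6, 47), (13, 22), (22, 13), (47, 6), (58, 4), (107, 1)]),
  (42, [(1, 107), (6, 51), (8, 35), (13, 22), (22, 13), (31, 9), (51, 6), (107, 1)]),
  (43, [(1, 107), (5, 57), (9, 34), (12, 25), (18, 16), (34, 9), (57, 5), (107, 1)]),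
  (44, [(1, 107), (5, 58), (9, 35), (13, 25), (20, 16), (30, 11), (51, 6), (58, 5), (107, 1)]),
  (45, [(1, 115), (6, 55), (10, 35), (17, 20), (27, 13), (35, 10), (55, 6), (115, 1)]),
  (46, [(1, 115), (6, 58), (11, 35), (18, 21), (35, 11), (58, 6), (115, 1)]),
  (47, [(2, 91), (6, 58), (12, 35), (23, 17), (35, 12), (58, 6), (91, 2)]),
  (48, [(1, 142), (6, 58), (13, 35), (35, 13), (58, 6), (142, 1)]),
  (49, [(1, 142), (8, 51), (13, 35), (23, 20), (35, 13), (58, 6), (142, 1)]),
  (50, [(2, 97), (9, 51), (13, 35), (23, 21), (35, 13), (51, 9), (97, 2)]),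
  (51, [(1, 172), (7, 58), (11, 44), (23, 22), (48, 10), (172, 1)]),
  (52, [(1, 172), (2, 107), (10, 51), (23, 22), (39, 13), (56, 8), (172, 1)]),
  (53, [(1, 172), (11, 50), (17, 31), (26, 20), (50, 11), (107, 2), (172, 1)]),
  (54, [(1, 190), (12, 49), (20, 28), (45, 13), (57, 9), (190, 1)]),
  (55, [(1, 190), (9, 58), (20, 30), (33, 18), (58, 9), (190, 1)]),
  (56, [(1, 190), (13, 51), (21, 30), (51, 13), (70, 5), (190, 1)]),
  (57, [(1, 190), (11, 56), (19, 35), (29, 23), (56, 11), (190, 1)]),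
  (58, [(1, 205), (11, 58), (19, 36), (31, 23), (58, 11), (205, 1)]),
  (59, [(1, 205), (12, 58), (23, 32), (36, 20), (59, 11), (205, 1)]),
  (60, [(5, 88), (13, 56), (34, 23), (56, 13), (88, 5), (205, 1)]),
  (61, [(1, 241), (13, 58), (35, 23), (58, 13), (241, 1)]),
  (62, [(2, 170), (13, 58), (35, 23), (58, 13), (170, 2)]),
  (63, [(2, 172), (6, 91), (20, 41), (34, 24), (58, 13), (172, 2)]),
  (64, [(6, 91), (19, 46), (51, 17), (91, 6), (280, 1)]),
  (65, [(5, 107), (18, 51), (51, 18), (107, 5), (280, 1)]),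
  (66, [(5, 107), (19, 51), (51, 19), (107, 5), (280, 1)]),
  (67, [(6, 102), (23, 43), (57, 16), (102, 6), (298, 1)]),
  (68, [(6, 107), (21, 50), (50, 21), (107, 6), (298, 1)]),
  (69, [(6, 107), (23, 48), (58, 17), (107, 6), (298, 1)]),
  (70, [(6, 107), (23, 50), (50, 23), (107, 6), (205, 2)]),
  (71, [(4, 142), (19, 58), (36, 33), (58, 19), (142, 4)]),
  (72, [(3, 172), (20, 57), (36, 34), (57, 20), (115, 6)]),
  (73, [(2, 228), (21, 57), (57, 21), (91, 9), (228, 2)]),
  (74, [(5, 140), (23, 54), (59, 20), (140, 5)]),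
  (75, [(5, 142), (21, 59), (59, 21), (142, 5)]),
  (76, [(4, 172), (22, 59), (58, 23), (172, 4)]),
  (77, [(6, 137), (23, 58), (59, 22), (137, 6)]),
  (78, [(2, 280), (12, 88), (45, 32), (88, 12), (280, 2)]),
  (79, [(5, 165), (28, 52), (57, 24), (165, 5)]),
  (80, [(4, 190), (13, 89), (43, 36), (89, 13), (190, 4)]),
  (81, [(13, 91), (36, 44), (91, 13), (298, 2)]),
  (82, [(11, 104), (46, 36), (104, 11), (298, 2)]),
  (83, [(6, 169), (26, 59), (48, 36), (169, 6)]),
  (84, [(5, 190), (12, 104), (50, 36), (190, 5)]),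
  (85, [(12, 107), (51, 36), (107, 12), (321, 2)]),
  (86, [(13, 105), (51, 36), (105, 13), (321, 2)]),
  (87, [(6, 184), (30, 59), (59, 30), (184, 6)]),
  (88, [(6, 190), (31, 59), (59, 31), (190, 6)]),
  (89, [(9, 140), (33, 59), (59, 33), (115, 12)]),
  (90, [(9, 142), (34, 59), (59, 34), (241, 4)]),
  (91, [(10, 137), (35, 59), (59, 35), (137, 10)]),
  (92, [(6, 204), (35, 59), (59, 35), (204, 6)]),
  (93, [(8, 172), (19, 91), (52, 42), (172, 8)]),
  (94, [(2, 412), (16, 104), (52, 44), (141, 11)]),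
  (95, [(4, 280), (21, 89), (52, 45), (142, 11)]),
  (96, [(9, 172), (21, 91), (59, 38), (172, 9)]),
  (97, [(6, 231), (22, 91), (59, 39), (231, 6)]),
  (98, [(6, 241), (13, 138), (59, 40), (241, 6)]),
  (99, [(5, 280), (13, 142), (59, 42), (280, 5)]),
  (100, [(2, 462), (19, 107), (59, 43), (184, 9)]),
  (101, [(9, 190), (22, 96), (59, 44), (190, 9)]),
  (102, [(6, 259), (20, 107), (45, 59), (172, 11)]),
  (103, [(6, 271), (59, 47), (271, 6)]),
  (104, [(6, 280), (59, 48), (280, 6)]),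
  (105, [(13, 163), (49, 59), (163, 13)]),
  (106, [(6, 280), (59, 51), (280, 6)]),
  (107, [(6, 290), (59, 51), (290, 6)]),
  (108, [(13, 172), (59, 51), (172, 13)]),
  (109, [(12, 187), (59, 52), (187, 12)]),
  (110, [(6, 298), (30, 91), (112, 23), (298, 6)]),
  (111, [(13, 184), (59, 54), (184, 13)]),
  (112, [(13, 190), (59, 56), (190, 13)]),
  (113, [(13, 190), (59, 57), (190, 13)]),
  (114, [(19, 142), (59, 58), (142, 19)]),
  (115, [(20, 140), (59, 58), (140, 20)]),
  (116, [(20, 142), (58, 59), (142, 20), (488, 3)]),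
  (117, [(5, 393), (36, 91), (141, 21)]),
  (118, [(17, 169), (71, 47), (409, 5)]),
  (119, [(5, 412), (31, 106), (172, 17)]),
  (120, [(12, 226), (52, 68), (226, 12)]),
  (121, [(12, 233), (105, 33), (233, 12)]),
  (122, [(33, 107), (107, 33), (272, 10)]),
  (123, [(34, 107), (88, 41), (397, 6)]),
  (124, [(6, 412), (41, 90), (103, 36)]),
  (125, [(36, 106), (106, 36), (412, 6)]),
  (126, [(21, 168), (79, 49), (412, 6)]),
  (127, [(6, 420), (44, 90), (107, 36)]),
  (128, [(6, 431), (45, 90), (169, 22)]),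
  (129, [(23, 165), (70, 59), (165, 23)]),
  (130, [(23, 169), (70, 59), (169, 23)]),
  (131, [(20, 190), (83, 52), (190, 20)]),
  (132, [(23, 172), (89, 50), (489, 5)]),
  (133, [(13, 280), (87, 52), (280, 13)]),
  (134, [(12, 295), (52, 89), (185, 22)]),
  (135, [(22, 189), (52, 91), (189, 22)]),
  (136, [(6, 473), (44, 105), (142, 31)]),
  (137, [(23, 189), (105, 45), (489, 6)]),
  (138, [(23, 190), (81, 59), (190, 23)]),
  (139, [(33, 142), (107, 46), (357, 10)]),
  (140, [(6, 489), (47, 107), (320, 12)]),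
  (141, [(29, 162), (86, 59), (397, 9)]),
  (142, [(15, 280), (88, 59), (280, 15)]),
  (143, [(29, 169), (90, 59), (412, 9)]),
  (144, [(9, 412), (59, 91), (412, 9)]),
  (145, [(16, 280), (107, 52), (280, 16)]),
  (146, [(10, 404), (52, 107), (172, 30)]),
  (147, [(12, 360), (59, 93), (156, 34)]),
  (148, [(10, 412), (59, 95), (412, 10)]),
  (149, [(32, 172), (172, 32), (462, 8)]),
  (150, [(13, 354), (98, 59), (354, 13)]),
  (151, [(11, 411), (59, 100), (411, 11)]),
  (152, [(19, 274), (59, 102), (365, 13)]),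
  (153, [(13, 365), (104, 59), (365, 13)]),
  (154, [(12, 401), (106, 59), (401, 12)]),
  (155, [(12, 410), (107, 59), (276, 20)]),
  (156, [(12, 412), (36, 172), (280, 20)]),
  (157, [(32, 190), (107, 59), (489, 9)]),
  (158, [(13, 402), (50, 130), (190, 33)]),
  (159, [(13, 411), (141, 47), (411, 13)]),
  (160, [(13, 412), (140, 48), (412, 13)]),
  (161, [(20, 298), (59, 115), (298, 20)]),
  (162, [(23, 274), (134, 52), (274, 23)]),
  (163, [(10, 489), (136, 52), (489, 10)]),
  (164, [(52, 139), (139, 52), (489, 10)]),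
  (165, [(12, 457), (141, 52), (457, 12)]),
  (166, [(11, 487), (142, 52), (487, 11)]),
  (167, [(17, 360), (59, 123), (288, 23)]),
  (168, [(17, 365), (59, 125), (294, 23)])]

/-- Uniform corners for the large values of `x`. -/
def uniC (x : ℕ) : List (ℕ × ℕ) :=
  [(x / 5, 6 * x / 5), (3 * x / 10, 17 * x / 20), (x / 2, x / 2), (17 * x / 20, 3 * x / 10)]

theorem midTable_ok : (midTable.all fun p => midOK p.1 p.2) = true := by decide +kernel

theorem midTable_range : (List.range 133).all (fun i => midTable.any fun p => Nat.beq p.1 (36 + i)) = true := by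
  decide +kernel

theorem uni_ok : (List.range 2331).all (fun i => midOK (169 + i) (uniC (169 + i))) = true := by decide +kernel

end Crest.Agent.Lib.Saxl.EnvInst
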